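import Crest.Agent.Lib.KK.Spread
import Crest.Prelude.Def_RandomGraph

/-!
# From the spread condition to the second Kahn–Kalai statement

Bridges between `gnpProb`/`gnpExpect` and the expectation `Ex` of `Crest.Agent.Lib.KK.Spread`.
-/

set_option autoImplicit false

namespace Crest.Agent.Lib.KK

open Finset Crest.CombinatoricsR.RandomGraph Crest.FinProb

section Bridge

variable {X : Type*} [Fintype X] [DecidableEq X]

/-- The set of coordinates showing `true`. -/
def trueSet (ω : X → Bool) : Finset X := univ.filter (fun x => ω x = true)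

lemma bernoulliWeight_eq (q : ℝ) (ω : X → Bool) : bernoulliWeight q ω = mu q (trueSet ω) := by
  unfold bernoulliWeight mu trueSet
  refine Finset.prod_congr rfl fun x _ => ?_
  by_cases h : ω x = true <;> simp [h]

/-- Outcomes correspond to subsets. -/
def trueEquiv : (X → Bool) ≃ Finset X where
  toFun := trueSet
  invFun W x := decide (x ∈ W)
  left_inv ω := by funext x; by_cases h : ω x = true <;> simp [trueSet, h]
  right_inv W := by ext x; simp [trueSet]

lemma sum_bernoulli (q : ℝ) (g : Finset X → ℝ) :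
    ∑ ω : X → Bool, bernoulliWeight q ω * g (trueSet ω) = Ex q g := by
  unfold Ex
  refine Fintype.sum_equiv trueEquiv _ _ fun ω => ?_
  rw [bernoulliWeight_eq]
  rfl

/-- General form of `Ex_up`, valid for all `q`. -/
lemma Ex_up' (q : ℝ) (S : Finset X) : Ex q (fun Z => ind (S ⊆ Z)) = q ^ S.card := by
  have h : ∀ W : Finset X, mu q W * ind (S ⊆ W) =
      ∏ x, (if x ∈ W then q else (if x ∈ S then 0 else 1 - q)) := by
    intro W
    unfold mu
    by_cases hS : S ⊆ W
    · rw [ind_pos hS, mul_one]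
      refine Finset.prod_congr rfl fun x _ => ?_
      by_cases hx : x ∈ W
      · simp [hx]
      · have : x ∉ S := fun h' => hx (hS h')
        simp [hx, this]
    · rw [ind_neg hS, mul_zero]
      symm
      obtain ⟨x, hxS, hxW⟩ := Finset.not_subset.mp hS
      exact Finset.prod_eq_zero (mem_univ x) (by simp [hxS, hxW])
  unfold Ex
  simp_rw [h]
  rw [sum_prod_ite]
  have : ∀ x, q + (if x ∈ S then 0 else 1 - q) = if x ∈ S then q else 1 := by
    intro x; by_cases hx : x ∈ S <;> simp [hx]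
  simp_rw [this]
  rw [Finset.prod_ite_mem, Finset.univ_inter, Finset.prod_const]

end Bridge

lemma card_any {α : Type*} (i : Fintype α) : @Fintype.card α i = Nat.card α :=
  (@Nat.card_eq_fintype_card α i).symm

section Graph

variable {n : ℕ}

/-- The graph on `Fin n` with edge slots in `W`. -/
def graphOfSet (W : Finset (EdgeSlot n)) : SimpleGraph (Fin n) :=
  SimpleGraph.fromEdgeSet {z | ∃ h : ¬ z.IsDiag, (⟨z, h⟩ : EdgeSlot n) ∈ W}

lemma graphOf_eq (ω : EdgeSlot n → Bool) : graphOf ω = graphOfSet (trueSet ω) := by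
  unfold graphOf graphOfSet trueSet
  congr 1
  ext z
  simp

lemma gnpExpect_eq (q : ℝ) (f : SimpleGraph (Fin n) → ℝ) :
    gnpExpect n q f = Ex q (fun W => f (graphOfSet W)) := by
  rw [← sum_bernoulli]
  unfold gnpExpect
  refine Finset.sum_congr rfl fun ω _ => ?_
  rw [graphOf_eq]

lemma gnpProb_eq (q : ℝ) (E : Set (SimpleGraph (Fin n))) :
    gnpProb n q E = Ex q (fun W => ind (graphOfSet W ∈ E)) := by
  classical
  rw [← sum_bernoulli]
  unfold gnpProb bernoulliProb
  rw [Finset.sum_filter]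
  refine Finset.sum_congr rfl fun ω _ => ?_
  by_cases h : graphOf ω ∈ E
  · have h' : graphOfSet (trueSet ω) ∈ E := by rw [← graphOf_eq]; exact h
    rw [ind_pos h', mul_one, if_pos]
    · exact h
  · have h' : graphOfSet (trueSet ω) ∉ E := by rw [← graphOf_eq]; exact h
    rw [ind_neg h', mul_zero, if_neg]
    · exact h

variable {V : Type*} [Fintype V]

/-- The edge slot of an edge of `F` under the vertex embedding `σ`. -/
def slotMap (F : SimpleGraph V) (σ : V ↪ Fin n) (z : F.edgeSet) : EdgeSlot n :=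
  ⟨Sym2.map σ z.1, by
    rw [Sym2.isDiag_map σ.injective]
    exact F.not_isDiag_of_mem_edgeSet z.2⟩

lemma slotMap_injective (F : SimpleGraph V) (σ : V ↪ Fin n) :
    Function.Injective (slotMap F σ) := by
  intro z z' h
  have h' : Sym2.map σ z.1 = Sym2.map σ z'.1 := congrArg Subtype.val h
  exact Subtype.ext (Sym2.map.injective σ.injective h')

open Classical in
/-- The set of edge slots of the image of `F` under `σ`. -/
noncomputable def slots (F : SimpleGraph V) (σ : V ↪ Fin n) : Finset (EdgeSlot n) :=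
  univ.filter (fun x => x ∈ Set.range (slotMap F σ))

lemma mem_slots {F : SimpleGraph V} {σ : V ↪ Fin n} {x : EdgeSlot n} :
    x ∈ slots F σ ↔ ∃ u v, F.Adj u v ∧ x.1 = s(σ u, σ v) := by
  classical
  unfold slots
  simp only [mem_filter, mem_univ, true_and, Set.mem_range]
  constructor
  · rintro ⟨⟨z, hz⟩, rfl⟩
    induction z using Sym2.ind with
    | _ u v => exact ⟨u, v, hz, rfl⟩
  · rintro ⟨u, v, huv, hx⟩
    exact ⟨⟨s(u, v), huv⟩, Subtype.ext hx.symm⟩

lemma card_slots (F : SimpleGraph V) (σ : V ↪ Fin n) :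
    (slots F σ).card = Nat.card F.edgeSet := by
  classical
  have : Fintype F.edgeSet := Fintype.ofFinite _
  rw [Nat.card_eq_fintype_card, ← Set.card_range_of_injective (slotMap_injective F σ)]
  unfold slots
  rw [Fintype.card_subtype]
  refine congrArg Finset.card ?_
  ext x
  simp

lemma le_comap_iff_slots_subset (F : SimpleGraph V) (σ : V ↪ Fin n) (W : Finset (EdgeSlot n)) :
    F ≤ (graphOfSet W).comap σ ↔ slots F σ ⊆ W := by
  constructor
  · intro h x hx
    obtain ⟨u, v, huv, hxe⟩ := mem_slots.mp hx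
    have h1 : (graphOfSet W).Adj (σ u) (σ v) := h huv
    unfold graphOfSet at h1
    rw [SimpleGraph.fromEdgeSet_adj] at h1
    obtain ⟨⟨hd, hW⟩, _⟩ := h1
    have : x = ⟨s(σ u, σ v), hd⟩ := Subtype.ext hxe
    rw [this]
    exact hW
  · intro h u v huv
    have hne : σ u ≠ σ v := fun hc => huv.ne (σ.injective hc)
    have hd : ¬ (s(σ u, σ v)).IsDiag := by simpa using hne
    have hmem : (⟨s(σ u, σ v), hd⟩ : EdgeSlot n) ∈ slots F σ :=
      mem_slots.mpr ⟨u, v, huv, rfl⟩
    show (graphOfSet W).Adj (σ u) (σ v)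
    unfold graphOfSet
    rw [SimpleGraph.fromEdgeSet_adj]
    exact ⟨⟨hd, h hmem⟩, hne⟩

/-- Copies of `F` in `G` are the vertex embeddings pulling `G` back above `F`. -/
noncomputable def copyEquiv (F : SimpleGraph V) (G : SimpleGraph (Fin n)) :
    F.Copy G ≃ {σ : V ↪ Fin n // F ≤ G.comap σ} where
  toFun c := ⟨c.toEmbedding, fun _ _ h => c.toHom.map_adj h⟩
  invFun σ := ⟨⟨σ.1, fun h => σ.2 h⟩, σ.1.injective⟩
  left_inv c := by ext a; rfl
  right_inv σ := by ext a; rfl

lemma labelledCopyCount_eq_sum [DecidableEq V] (F : SimpleGraph V) (G : SimpleGraph (Fin n)) :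
    (G.labelledCopyCount F : ℝ) = ∑ σ : V ↪ Fin n, ind (F ≤ G.comap σ) := by
  classical
  unfold SimpleGraph.labelledCopyCount
  rw [card_any, Nat.card_congr (copyEquiv F G), Nat.card_eq_fintype_card,
    Fintype.card_subtype, Finset.card_filter]
  push_cast
  refine Finset.sum_congr rfl fun σ _ => ?_
  by_cases h : F ≤ G.comap σ
  · rw [ind_pos h, if_pos h]
  · rw [ind_neg h, if_neg h]

/-- Expected number of labelled copies. -/
lemma Ex_labelled [DecidableEq V] (q : ℝ) (F : SimpleGraph V) :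
    Ex q (fun W : Finset (EdgeSlot n) => ((graphOfSet W).labelledCopyCount F : ℝ)) =
      (n.descFactorial (Fintype.card V) : ℝ) * q ^ Nat.card F.edgeSet := by
  simp_rw [labelledCopyCount_eq_sum]
  rw [Ex_sum]
  have : ∀ σ : V ↪ Fin n,
      Ex q (fun W : Finset (EdgeSlot n) => ind (F ≤ (graphOfSet W).comap σ)) =
        q ^ Nat.card F.edgeSet := by
    intro σ
    simp_rw [le_comap_iff_slots_subset]
    rw [Ex_up', card_slots]
  simp_rw [this]
  rw [Finset.sum_const, nsmul_eq_mul, Finset.card_univ, Fintype.card_embedding_eq,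
    Fintype.card_fin]

/-- Every unlabelled copy comes with `aut` labelled copies. -/
lemma copyCount_mul_aut_le {U : Type*} [Fintype U] (G : SimpleGraph U) (F : SimpleGraph V) :
    G.copyCount F * Nat.card (F ≃g F) ≤ G.labelledCopyCount F := by
  classical
  rw [SimpleGraph.copyCount_eq_card_image_copyToSubgraph]
  unfold SimpleGraph.labelledCopyCount
  rw [← Finset.card_univ, Finset.card_eq_sum_card_image (SimpleGraph.Copy.toSubgraph (A := F) (B := G)) univ]
  rw [← smul_eq_mul, ← Finset.sum_const]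
  refine Finset.sum_le_sum fun G' hG' => ?_
  obtain ⟨c, -, rfl⟩ := Finset.mem_image.mp hG'
  have hfin : Finite (F ≃g F) :=
    Finite.of_injective (fun φ : F ≃g F => (φ : V → V)) (fun φ φ' h => RelIso.ext (congrFun h))
  have : Fintype (F ≃g F) := Fintype.ofFinite _
  rw [Nat.card_eq_fintype_card, ← Finset.card_univ]
  refine Finset.card_le_card_of_injOn (fun φ => c.comp φ.toCopy) ?_ ?_
  · intro φ _
    simp only [Finset.coe_filter, mem_univ, true_and, Set.mem_ofPred_eq]
    ext x y
    · simp only [SimpleGraph.Subgraph.map_verts, SimpleGraph.Subgraph.verts_top, Set.image_univ,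
        Set.mem_range]
      constructor
      · rintro ⟨a, rfl⟩
        exact ⟨φ a, rfl⟩
      · rintro ⟨a, rfl⟩
        exact ⟨φ.symm a, by simp [SimpleGraph.Copy.comp_apply]⟩
    · simp only [SimpleGraph.Subgraph.map_adj, SimpleGraph.Subgraph.top_adj, Relation.map_apply]
      constructor
      · rintro ⟨a, b, hab, rfl, rfl⟩
        exact ⟨φ a, φ b, φ.map_rel_iff.mpr hab, rfl, rfl⟩
      · rintro ⟨a, b, hab, rfl, rfl⟩
        exact ⟨φ.symm a, φ.symm b, φ.symm.map_rel_iff.mpr hab, by simp [SimpleGraph.Copy.comp_apply],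
          by simp [SimpleGraph.Copy.comp_apply]⟩
  · intro φ _ φ' _ h
    apply RelIso.ext
    intro a
    have := congrArg (fun d : SimpleGraph.Copy F G => d a) h
    simp only [SimpleGraph.Copy.comp_apply] at this
    exact c.injective this

end Graph

section Main

variable {n : ℕ} {W : Type} [Fintype W] [DecidableEq W] {H : SimpleGraph W}

/-- The hypothesis of the statement gives the automorphism bound. -/
lemma aut_bound (p : ℝ) (hp0 : 0 ≤ p) (hp1 : p ≤ 1) (F : H.Subgraph)
    (h : (1 : ℝ) / 2 ≤ gnpExpect n p (fun G => (G.copyCount F.coe : ℝ))) :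
    (Nat.card (F.coe ≃g F.coe) : ℝ) ≤
      2 * (n.descFactorial (Nat.card F.verts) : ℝ) * p ^ Nat.card F.coe.edgeSet := by
  classical
  have : Fintype F.verts := Fintype.ofFinite _
  rw [gnpExpect_eq] at h
  have h1 := Ex_labelled (n := n) p F.coe
  have h2 : Ex p (fun W : Finset (EdgeSlot n) =>
        (Nat.card (F.coe ≃g F.coe) : ℝ) * ((graphOfSet W).copyCount F.coe : ℝ)) ≤
      Ex p (fun W : Finset (EdgeSlot n) => ((graphOfSet W).labelledCopyCount F.coe : ℝ)) := by
    apply Ex_mono hp0 hp1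
    intro Z
    have := copyCount_mul_aut_le (graphOfSet Z) F.coe
    have h3 : (((graphOfSet Z).copyCount F.coe * Nat.card (F.coe ≃g F.coe) : ℕ) : ℝ) ≤
        ((graphOfSet Z).labelledCopyCount F.coe : ℝ) := by exact_mod_cast this
    push_cast at h3
    linarith
  rw [Ex_const_mul, h1] at h2
  have hnn : (0 : ℝ) ≤ (Nat.card (F.coe ≃g F.coe) : ℝ) := Nat.cast_nonneg _
  have h4 : (Nat.card (F.coe ≃g F.coe) : ℝ) * (1 / 2) ≤
      (n.descFactorial (Fintype.card F.verts) : ℝ) * p ^ Nat.card F.coe.edgeSet :=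
    (mul_le_mul_of_nonneg_left h hnn).trans h2
  rw [Nat.card_eq_fintype_card (α := F.verts)]
  linarith

/-- Counting extensions of a partial embedding. -/
lemma card_extensions {A B C : Type*} [Fintype A] [Fintype B] [Fintype C]
    [DecidableEq A] [DecidableEq B] [DecidableEq C]
    (τ : A ↪ C) (κ : A ↪ B) :
    (Finset.univ.filter (fun σ : C ↪ B => ∀ a, σ (τ a) = κ a)).card ≤
      (Fintype.card B - Fintype.card A).descFactorial (Fintype.card C - Fintype.card A) := by
  classical
  let D := {x : C // x ∉ Set.range τ}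
  let E := {y : B // y ∉ Set.range κ}
  have hD : Fintype.card D = Fintype.card C - Fintype.card A := by
    have h1 : Fintype.card D = Fintype.card C - Fintype.card (Set.range τ) :=
      Fintype.card_subtype_compl _
    rw [h1, Set.card_range_of_injective τ.injective]
  have hE : Fintype.card E = Fintype.card B - Fintype.card A := by
    have h1 : Fintype.card E = Fintype.card B - Fintype.card (Set.range κ) :=
      Fintype.card_subtype_compl _
    rw [h1, Set.card_range_of_injective κ.injective]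
  rw [← hD, ← hE, ← Fintype.card_embedding_eq]
  have key : ∀ σ : C ↪ B, (∀ a, σ (τ a) = κ a) → ∀ x : D, σ x.1 ∉ Set.range κ := by
    rintro σ hσ ⟨x, hx⟩ ⟨a, ha⟩
    apply hx
    refine ⟨a, ?_⟩
    apply σ.injective
    rw [hσ a]
    exact ha
  rw [← Fintype.card_subtype]
  refine Fintype.card_le_of_injective
    (fun σ => (⟨fun x => ⟨σ.1 x.1, key σ.1 σ.2 x⟩, fun x x' hxx =>
      Subtype.ext (σ.1.injective (congrArg Subtype.val hxx))⟩ : D ↪ E)) ?_
  intro σ σ' h
  apply Subtype.ext
  ext x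
  by_cases hx : x ∈ Set.range τ
  · obtain ⟨a, rfl⟩ := hx
    rw [σ.2 a, σ'.2 a]
  · have := congrArg (fun d : D ↪ E => (d ⟨x, hx⟩).1) h
    simpa using congrArg (fun y : B => y) this

/-- The subgraph of `H` that `σ₀` identifies with the edge slots `S`. -/
def subgraphOfSlots (σ₀ : W ↪ Fin n) (S : Finset (EdgeSlot n)) (hS : S ⊆ slots H σ₀) :
    H.Subgraph where
  verts := {u | ∃ x ∈ S, σ₀ u ∈ x.1}
  Adj u v := ∃ x ∈ S, x.1 = s(σ₀ u, σ₀ v)
  adj_sub := by
    rintro u v ⟨x, hx, hxe⟩
    obtain ⟨a, b, hab, hxab⟩ := mem_slots.mp (hS hx)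
    rw [hxe] at hxab
    rcases Sym2.eq_iff.mp hxab with ⟨h1, h2⟩ | ⟨h1, h2⟩
    · rw [σ₀.injective h1, σ₀.injective h2]; exact hab
    · rw [σ₀.injective h1, σ₀.injective h2]; exact hab.symm
  edge_vert := by
    rintro u v ⟨x, hx, hxe⟩
    exact ⟨x, hx, by rw [hxe]; simp⟩
  symm := ⟨by
    rintro u v ⟨x, hx, hxe⟩
    exact ⟨x, hx, by rw [hxe, Sym2.eq_swap]⟩⟩

/-- The embedding of the vertices of the subgraph. -/
def subEmb (σ₀ : W ↪ Fin n) (F : H.Subgraph) : F.verts ↪ Fin n :=
  ⟨fun a => σ₀ a.1, fun _ _ h => Subtype.ext (σ₀.injective h)⟩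

lemma slots_subgraphOfSlots (σ₀ : W ↪ Fin n) (S : Finset (EdgeSlot n)) (hS : S ⊆ slots H σ₀)
    [Fintype (subgraphOfSlots σ₀ S hS).verts] :
    slots (subgraphOfSlots σ₀ S hS).coe (subEmb σ₀ (subgraphOfSlots σ₀ S hS)) = S := by
  ext x
  rw [mem_slots]
  constructor
  · rintro ⟨u, v, huv, hx⟩
    obtain ⟨y, hy, hye⟩ := huv
    have : x = y := Subtype.ext (by rw [hx, hye]; rfl)
    rw [this]; exact hy
  · intro hx
    obtain ⟨a, b, hab, hxab⟩ := mem_slots.mp (hS hx)
    refine ⟨⟨a, x, hx, by rw [hxab]; simp⟩, ⟨b, x, hx, by rw [hxab]; simp⟩, ⟨x, hx, hxab⟩, hxab⟩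

/-- Each `σ` with `S ⊆ slots H σ` restricts to a copy of the subgraph in `H`. -/
lemma exists_copy (σ₀ σ : W ↪ Fin n) (S : Finset (EdgeSlot n)) (hS : S ⊆ slots H σ₀)
    (hσ : S ⊆ slots H σ) :
    ∃ τ : (subgraphOfSlots σ₀ S hS).coe.Copy H,
      ∀ a : (subgraphOfSlots σ₀ S hS).verts, σ (τ a) = σ₀ a.1 := by
  have hex : ∀ a : (subgraphOfSlots σ₀ S hS).verts, ∃ b : W, σ b = σ₀ a.1 := by
    rintro ⟨a, x, hx, hax⟩
    obtain ⟨c, d, _, hxcd⟩ := mem_slots.mp (hσ hx)
    rw [hxcd, Sym2.mem_iff] at hax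
    rcases hax with h | h
    · exact ⟨c, h.symm⟩
    · exact ⟨d, h.symm⟩
  choose τ hτ using hex
  refine ⟨⟨⟨τ, ?_⟩, ?_⟩, hτ⟩
  · intro a b hab
    obtain ⟨x, hx, hxe⟩ := hab
    obtain ⟨c, d, hcd, hxcd⟩ := mem_slots.mp (hσ hx)
    rw [hxe, ← hτ a, ← hτ b] at hxcd
    rcases Sym2.eq_iff.mp hxcd with ⟨h1, h2⟩ | ⟨h1, h2⟩
    · rw [σ.injective h1, σ.injective h2]; exact hcd
    · rw [σ.injective h1, σ.injective h2]; exact hcd.symm
  · intro a b hab
    have h1 : σ (τ a) = σ (τ b) := by rw [show τ a = τ b from hab]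
    rw [hτ, hτ] at h1
    exact Subtype.ext (σ₀.injective h1)

/-- The Key Lemma conclusion gives the spread condition. -/
theorem spread_of_key (hwn : Fintype.card W ≤ n) (ρ : ℝ) (hρ : 0 ≤ ρ)
    (key : ∀ F : H.Subgraph, (Nat.card (F.coe.Copy H) : ℝ) ≤
      (n.descFactorial (Nat.card F.verts) : ℝ) * ρ ^ Nat.card F.coe.edgeSet)
    (S : Finset (EdgeSlot n)) :
    ((Finset.univ.filter (fun σ : W ↪ Fin n => S ⊆ slots H σ)).card : ℝ) ≤
      ρ ^ S.card * (Fintype.card (W ↪ Fin n) : ℝ) := by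
  classical
  by_cases hA : ∃ σ₀ : W ↪ Fin n, S ⊆ slots H σ₀
  swap
  · have : (Finset.univ.filter (fun σ : W ↪ Fin n => S ⊆ slots H σ)) = ∅ := by
      ext σ
      simp only [mem_filter, mem_univ, true_and, notMem_empty, iff_false]
      exact fun h => hA ⟨σ, h⟩
    rw [this, Finset.card_empty, Nat.cast_zero]
    positivity
  obtain ⟨σ₀, hS⟩ := hA
  set F := subgraphOfSlots σ₀ S hS with hF
  have : Fintype F.verts := Fintype.ofFinite _
  have hfin : Finite (F.coe.Copy H) :=
    Finite.of_injective (fun c : F.coe.Copy H => (c : F.verts → W))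
      (fun c c' h => SimpleGraph.Copy.ext (congrFun h))
  have : Fintype (F.coe.Copy H) := Fintype.ofFinite _
  have hv : Nat.card F.verts = Fintype.card F.verts := Nat.card_eq_fintype_card
  have he : Nat.card F.coe.edgeSet = S.card := by
    rw [← card_slots F.coe (subEmb σ₀ F)]
    exact congrArg Finset.card (slots_subgraphOfSlots σ₀ S hS)
  set v := Fintype.card F.verts with hvdef
  set w := Fintype.card W with hwdef
  have hvw : v ≤ w := Fintype.card_le_of_injective _ Subtype.val_injective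
  set D := (n - v).descFactorial (w - v) with hD
  have hsub : (Finset.univ.filter (fun σ : W ↪ Fin n => S ⊆ slots H σ)) ⊆
      (Finset.univ : Finset (F.coe.Copy H)).biUnion
        (fun τ => Finset.univ.filter (fun σ : W ↪ Fin n => ∀ a : F.verts,
          σ (τ.toEmbedding a) = subEmb σ₀ F a)) := by
    intro σ hσ
    have hσ' : S ⊆ slots H σ := (Finset.mem_filter.mp hσ).2
    obtain ⟨τ, hτ⟩ := exists_copy σ₀ σ S hS hσ'
    refine Finset.mem_biUnion.mpr ⟨τ, Finset.mem_univ _, Finset.mem_filter.mpr ⟨Finset.mem_univ _, ?_⟩⟩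
    intro a
    exact hτ a
  have hcard : (Finset.univ.filter (fun σ : W ↪ Fin n => S ⊆ slots H σ)).card ≤
      Fintype.card (F.coe.Copy H) * D := by
    refine (Finset.card_le_card hsub).trans (Finset.card_biUnion_le.trans ?_)
    rw [← smul_eq_mul, ← Finset.card_univ, ← Finset.sum_const]
    refine Finset.sum_le_sum fun τ _ => ?_
    have := card_extensions τ.toEmbedding (subEmb σ₀ F)
    rw [Fintype.card_fin] at this
    exact this
  have hcardR : ((Finset.univ.filter (fun σ : W ↪ Fin n => S ⊆ slots H σ)).card : ℝ) ≤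
      (Fintype.card (F.coe.Copy H) : ℝ) * (D : ℝ) := by exact_mod_cast hcard
  refine hcardR.trans ?_
  have hk := key F
  rw [Nat.card_eq_fintype_card, hv, he] at hk
  have hfac : (D : ℝ) * (n.descFactorial v : ℝ) = (Fintype.card (W ↪ Fin n) : ℝ) := by
    rw [Fintype.card_embedding_eq, Fintype.card_fin, hD]
    exact_mod_cast Nat.descFactorial_mul_descFactorial hvw
  calc (Fintype.card (F.coe.Copy H) : ℝ) * (D : ℝ)
      ≤ ((n.descFactorial v : ℝ) * ρ ^ S.card) * (D : ℝ) :=
        mul_le_mul_of_nonneg_right hk (Nat.cast_nonneg _)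
    _ = ρ ^ S.card * ((D : ℝ) * (n.descFactorial v : ℝ)) := by ring
    _ = _ := by rw [hfac]

/-- **Reduction.** The Key Lemma implies the second Kahn-Kalai statement. -/
theorem S0076_of_key (C : ℝ) (hC0 : 0 < C) (hC : C ≤ Real.exp 50)
    (n : ℕ) (hn : 2 ≤ n) (W : Type) [Fintype W] [DecidableEq W] (H : SimpleGraph W)
    [DecidableRel H.Adj] (hW : Fintype.card W ≤ n) (hH : 1 ≤ H.edgeFinset.card)
    (p : ℝ) (hp0 : 0 ≤ p) (hp1 : p ≤ 1)
    (key : (∀ G : H.Subgraph, (Nat.card (G.coe ≃g G.coe) : ℝ) ≤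
        2 * (n.descFactorial (Nat.card G.verts) : ℝ) * p ^ Nat.card G.coe.edgeSet) →
      ∀ F : H.Subgraph, (Nat.card (F.coe.Copy H) : ℝ) ≤
        (n.descFactorial (Nat.card F.verts) : ℝ) * (C * p) ^ Nat.card F.coe.edgeSet)
    (hE : ∀ F : H.Subgraph, (1 : ℝ) / 2 ≤
      gnpExpect n p (fun G => (G.copyCount F.coe : ℝ))) :
    (1 : ℝ) / 2 ≤ gnpProb n
      (min 1 (2048 * Real.exp 50 * p * (1 + Real.logb 2 (H.edgeFinset.card : ℝ))))
      {G | H.IsContained G} := by
  classical
  have haut : ∀ G : H.Subgraph, (Nat.card (G.coe ≃g G.coe) : ℝ) ≤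
      2 * (n.descFactorial (Nat.card G.verts) : ℝ) * p ^ Nat.card G.coe.edgeSet :=
    fun G => aut_bound p hp0 hp1 G (hE G)
  have hkey := key haut
  -- `p` is positive
  have hpos : 0 < p := by
    rcases hp0.lt_or_eq with h | h
    · exact h
    · exfalso
      have h0 := haut ⊤
      rw [← h] at h0
      have hedge : Nat.card (⊤ : H.Subgraph).coe.edgeSet ≠ 0 := by
        have hne : H.edgeFinset.Nonempty := Finset.card_pos.mp hH
        obtain ⟨z, hz⟩ := hne
        have hz' : z ∈ H.edgeSet := SimpleGraph.mem_edgeFinset.mp hz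
        induction z using Sym2.ind with
        | _ u v =>
          have huv : H.Adj u v := hz'
          have hne' : Nonempty (⊤ : H.Subgraph).coe.edgeSet := by
            refine ⟨⟨s(⟨u, trivial⟩, ⟨v, trivial⟩), ?_⟩⟩
            exact huv
          exact Nat.card_pos.ne'
      rw [zero_pow hedge, mul_zero] at h0
      have hfin : Finite ((⊤ : H.Subgraph).coe ≃g (⊤ : H.Subgraph).coe) :=
        Finite.of_injective (fun φ => (φ : (⊤ : H.Subgraph).verts → (⊤ : H.Subgraph).verts))
          (fun φ φ' h => RelIso.ext (congrFun h))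
      have hne : Nonempty ((⊤ : H.Subgraph).coe ≃g (⊤ : H.Subgraph).coe) := ⟨RelIso.refl _⟩
      have : 0 < Nat.card ((⊤ : H.Subgraph).coe ≃g (⊤ : H.Subgraph).coe) := Nat.card_pos
      have h1 : (0 : ℝ) < Nat.card ((⊤ : H.Subgraph).coe ≃g (⊤ : H.Subgraph).coe) := by
        exact_mod_cast this
      linarith
  set h := H.edgeFinset.card with hh
  have hlog0 : 0 ≤ Real.logb 2 (h : ℝ) := by
    apply Real.logb_nonneg (by norm_num)
    exact_mod_cast hH
  set X : ℝ := 2048 * Real.exp 50 * p * (1 + Real.logb 2 (h : ℝ)) with hX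
  have hX0 : 0 ≤ X := by positivity
  have hρ : 0 < C * p := mul_pos hC0 hpos
  have hspread := spread_of_key hW (C * p) hρ.le hkey
  have hne : Nonempty (W ↪ Fin n) :=
    Function.Embedding.nonempty_of_card_le (by simpa using hW)
  have hsize : ∀ σ : W ↪ Fin n, (slots H σ).card ≤ h := by
    intro σ
    rw [card_slots, hh, SimpleGraph.edgeFinset_card, Nat.card_eq_fintype_card]
  have hq : min 1 X = 1 ∨
      ((Nat.log 2 h + 1 : ℕ) : ℝ) * (2048 * (C * p)) ≤ min 1 X := by
    by_cases h1 : 1 ≤ X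
    · left; exact min_eq_left h1
    · right
      rw [min_eq_right (le_of_not_ge h1)]
      have h2 : (Nat.log 2 h : ℝ) ≤ Real.logb 2 (h : ℝ) := by
        have := Real.natLog_le_logb h 2
        simpa using this
      have h3 : ((Nat.log 2 h + 1 : ℕ) : ℝ) ≤ 1 + Real.logb 2 (h : ℝ) := by
        push_cast; linarith
      have h4 : 2048 * (C * p) ≤ 2048 * Real.exp 50 * p := by
        have := mul_le_mul_of_nonneg_right hC hpos.le
        linarith
      calc ((Nat.log 2 h + 1 : ℕ) : ℝ) * (2048 * (C * p))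
          ≤ (1 + Real.logb 2 (h : ℝ)) * (2048 * Real.exp 50 * p) :=
            mul_le_mul h3 h4 (by positivity) (by positivity)
        _ = X := by rw [hX]; ring
  have hmain := spread_main (slots H) h hsize (C * p) hρ hspread (min 1 X)
    (le_min zero_le_one hX0) (min_le_left _ _) hq
  rw [gnpProb_eq]
  refine hmain.trans ?_
  apply Ex_mono (le_min zero_le_one hX0) (min_le_left _ _)
  intro Z
  apply ind_mono
  rintro ⟨σ, hσ⟩
  exact SimpleGraph.isContained_iff_exists_le_comap.mpr
    ⟨σ, (le_comap_iff_slots_subset H σ Z).mpr hσ⟩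

end Main

end Crest.Agent.Lib.KK
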