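import Mathlib

/-!
# A spread lemma (second-moment proof)

Product measure on subsets of a finite set; the spread lemma with explicit constant `K = 2048`
and `⌊log₂ h⌋ + 1` rounds.
-/

set_option autoImplicit false

namespace Crest.Agent.Lib.KK

open Finset

section Ind

open Classical in
/-- Real indicator of a proposition. -/
noncomputable def ind (P : Prop) : ℝ := if P then 1 else 0

lemma ind_pos {P : Prop} (h : P) : ind P = 1 := by
  classical exact if_pos h

lemma ind_neg {P : Prop} (h : ¬ P) : ind P = 0 := by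
  classical exact if_neg h

lemma ind_nonneg (P : Prop) : 0 ≤ ind P := by
  by_cases h : P
  · rw [ind_pos h]; exact zero_le_one
  · rw [ind_neg h]

lemma ind_le_one (P : Prop) : ind P ≤ 1 := by
  by_cases h : P
  · rw [ind_pos h]
  · rw [ind_neg h]; exact zero_le_one

lemma ind_mono {P Q : Prop} (h : P → Q) : ind P ≤ ind Q := by
  by_cases hP : P
  · rw [ind_pos hP, ind_pos (h hP)]
  · rw [ind_neg hP]; exact ind_nonneg Q

lemma ind_and (P Q : Prop) : ind (P ∧ Q) = ind P * ind Q := by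
  by_cases hP : P <;> by_cases hQ : Q <;> simp [ind_pos, ind_neg, hP, hQ]

end Ind

variable {X : Type*} [Fintype X] [DecidableEq X]

/-- Product weight on subsets of `X`. -/
noncomputable def mu (q : ℝ) (W : Finset X) : ℝ := ∏ x, if x ∈ W then q else 1 - q

/-- Expectation under `mu`. -/
noncomputable def Ex (q : ℝ) (g : Finset X → ℝ) : ℝ := ∑ W, mu q W * g W

lemma mu_nonneg {q : ℝ} (h0 : 0 ≤ q) (h1 : q ≤ 1) (W : Finset X) : 0 ≤ mu q W :=
  Finset.prod_nonneg fun x _ => by split_ifs <;> linarith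

lemma prod_ite_split (b c : X → ℝ) (W : Finset X) :
    (∏ x, if x ∈ W then b x else c x) = (∏ x ∈ W, b x) * ∏ x ∈ univ \ W, c x := by
  rw [Finset.prod_ite]
  congr 1
  · congr 1; ext x; simp
  · congr 1; ext x; simp

lemma sum_prod_ite (b c : X → ℝ) :
    ∑ W : Finset X, ∏ x, (if x ∈ W then b x else c x) = ∏ x, (b x + c x) := by
  rw [Finset.prod_add, Finset.powerset_univ]
  exact Finset.sum_congr rfl fun W _ => prod_ite_split b c W

lemma sum_mu (q : ℝ) : ∑ W : Finset X, mu q W = 1 := by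
  unfold mu
  rw [sum_prod_ite]
  simp

lemma Ex_one (q : ℝ) : Ex q (fun _ : Finset X => (1 : ℝ)) = 1 := by
  simp [Ex, sum_mu]

lemma Ex_mono {q : ℝ} (h0 : 0 ≤ q) (h1 : q ≤ 1) {g h : Finset X → ℝ} (hgh : ∀ W, g W ≤ h W) :
    Ex q g ≤ Ex q h :=
  Finset.sum_le_sum fun W _ => mul_le_mul_of_nonneg_left (hgh W) (mu_nonneg h0 h1 W)

lemma Ex_nonneg {q : ℝ} (h0 : 0 ≤ q) (h1 : q ≤ 1) {g : Finset X → ℝ} (hg : ∀ W, 0 ≤ g W) :
    0 ≤ Ex q g :=
  Finset.sum_nonneg fun W _ => mul_nonneg (mu_nonneg h0 h1 W) (hg W)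

lemma Ex_const_mul (q c : ℝ) (g : Finset X → ℝ) : Ex q (fun W => c * g W) = c * Ex q g := by
  unfold Ex
  rw [Finset.mul_sum]
  exact Finset.sum_congr rfl fun W _ => by ring

lemma Ex_sum {ι : Type*} (q : ℝ) (I : Finset ι) (g : ι → Finset X → ℝ) :
    Ex q (fun W => ∑ i ∈ I, g i W) = ∑ i ∈ I, Ex q (g i) := by
  unfold Ex
  simp_rw [Finset.mul_sum]
  exact Finset.sum_comm

lemma Ex_sq_le {q : ℝ} (h0 : 0 ≤ q) (h1 : q ≤ 1) (g : Finset X → ℝ) :
    (Ex q g) ^ 2 ≤ Ex q (fun W => (g W) ^ 2) := by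
  set m := Ex q g with hm
  have key : 0 ≤ Ex q (fun W => (g W - m) ^ 2) := Ex_nonneg h0 h1 fun W => sq_nonneg _
  have expand : Ex q (fun W => (g W - m) ^ 2) =
      Ex q (fun W => (g W) ^ 2) - 2 * m * Ex q g + m ^ 2 * Ex q (fun _ : Finset X => (1 : ℝ)) := by
    unfold Ex
    rw [Finset.mul_sum, Finset.mul_sum, ← Finset.sum_sub_distrib, ← Finset.sum_add_distrib]
    exact Finset.sum_congr rfl fun W _ => by ring
  rw [expand, Ex_one, ← hm] at key
  nlinarith [key]

/-- Fiber sum of the product weight over `W` with `S ∪ W = Z`, in product form. -/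
lemma fiber1 (b : ℝ) (S Z : Finset X) :
    ∑ W : Finset X, mu b W * ind (S ∪ W = Z) =
      ∏ x, ((if x ∈ Z then b else 0) + (if (x ∈ S ↔ x ∈ Z) then 1 - b else 0)) := by
  rw [← sum_prod_ite]
  refine Finset.sum_congr rfl fun W _ => ?_
  unfold mu
  by_cases h : S ∪ W = Z
  · rw [ind_pos h, mul_one]
    refine Finset.prod_congr rfl fun x _ => ?_
    have hx : x ∈ Z ↔ x ∈ S ∨ x ∈ W := by rw [← h]; simp
    by_cases hW : x ∈ W
    · simp [hW, hx]
    · simp [hW, hx]
  · rw [ind_neg h, mul_zero]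
    symm
    have : ∃ x, ¬ ((x ∈ S ∨ x ∈ W) ↔ x ∈ Z) := by
      by_contra hcon
      apply h
      ext x
      by_contra hx
      exact hcon ⟨x, by simpa using hx⟩
    obtain ⟨x, hx⟩ := this
    refine Finset.prod_eq_zero (mem_univ x) ?_
    by_cases hW : x ∈ W
    · have hZ : x ∉ Z := by
        intro hZ; exact hx ⟨fun _ => hZ, fun _ => Or.inr hW⟩
      simp [hW, hZ]
    · have hSZ : ¬ (x ∈ S ↔ x ∈ Z) := by
        intro hc; apply hx; simpa [hW] using hc
      simp [hW, hSZ]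

/-- Planted fiber identity. -/
lemma fiber_planted {q : ℝ} (hq : q ≠ 0) (S Z : Finset X) :
    ∑ W : Finset X, mu q W * ind (S ∪ W = Z) = (q⁻¹) ^ S.card * (ind (S ⊆ Z) * mu q Z) := by
  rw [fiber1]
  by_cases hSZ : S ⊆ Z
  · rw [ind_pos hSZ, one_mul]
    have hpow : (q⁻¹) ^ S.card = ∏ x, if x ∈ S then q⁻¹ else 1 := by
      rw [Finset.prod_ite_mem, Finset.univ_inter, Finset.prod_const]
    rw [hpow]
    unfold mu
    rw [← Finset.prod_mul_distrib]
    refine Finset.prod_congr rfl fun x _ => ?_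
    by_cases hS : x ∈ S
    · have hZ : x ∈ Z := hSZ hS
      simp [hS, hZ, hq]
    · by_cases hZ : x ∈ Z
      · simp [hS, hZ]
      · simp [hS, hZ]
  · rw [ind_neg hSZ, zero_mul, mul_zero]
    obtain ⟨x, hS, hZ⟩ := Finset.not_subset.mp hSZ
    refine Finset.prod_eq_zero (mem_univ x) ?_
    simp [hS, hZ]

/-- Expectation of a function of `S ∪ W` (planted identity). -/
lemma Ex_planted {q : ℝ} (hq : q ≠ 0) (S : Finset X) (g : Finset X → ℝ) :
    Ex q (fun W => g (S ∪ W)) = (q⁻¹) ^ S.card * Ex q (fun Z => ind (S ⊆ Z) * g Z) := by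
  have h1 : ∀ W : Finset X, g (S ∪ W) = ∑ Z : Finset X, ind (S ∪ W = Z) * g Z := by
    intro W
    rw [Finset.sum_eq_single (S ∪ W)]
    · rw [ind_pos rfl, one_mul]
    · intro Z _ hZ
      rw [ind_neg (fun h => hZ h.symm), zero_mul]
    · intro h; exact absurd (mem_univ _) h
  unfold Ex
  simp_rw [h1, Finset.mul_sum]
  rw [Finset.sum_comm]
  refine Finset.sum_congr rfl fun Z _ => ?_
  have := fiber_planted hq S Z
  calc ∑ W : Finset X, mu q W * (ind (S ∪ W = Z) * g Z)
      = (∑ W : Finset X, mu q W * ind (S ∪ W = Z)) * g Z := by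
        rw [Finset.sum_mul]; exact Finset.sum_congr rfl fun W _ => by ring
    _ = _ := by rw [this]; ring

lemma Ex_up {q : ℝ} (hq : q ≠ 0) (S : Finset X) :
    Ex q (fun Z => ind (S ⊆ Z)) = q ^ S.card := by
  have h := Ex_planted hq S (fun _ => (1 : ℝ))
  rw [Ex_one] at h
  simp only [mul_one] at h
  have hne : (q⁻¹) ^ S.card ≠ 0 := pow_ne_zero _ (inv_ne_zero hq)
  have hq' : q ^ S.card * (q⁻¹) ^ S.card = 1 := by
    rw [← mul_pow, mul_inv_cancel₀ hq, one_pow]
  calc Ex q (fun Z => ind (S ⊆ Z))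
      = (q ^ S.card * (q⁻¹) ^ S.card) * Ex q (fun Z => ind (S ⊆ Z)) := by rw [hq', one_mul]
    _ = q ^ S.card * ((q⁻¹) ^ S.card * Ex q (fun Z => ind (S ⊆ Z))) := by ring
    _ = q ^ S.card := by rw [← h, mul_one]

/-- The union of two independent random sets is random. -/
lemma fiber_union (a b : ℝ) (Z : Finset X) :
    ∑ W₁ : Finset X, mu a W₁ * ∑ W₂ : Finset X, mu b W₂ * ind (W₁ ∪ W₂ = Z) =
      mu (1 - (1 - a) * (1 - b)) Z := by
  simp_rw [fiber1]
  unfold mu
  simp_rw [← Finset.prod_mul_distrib]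
  have : ∀ W₁ : Finset X,
      (∏ x, (if x ∈ W₁ then a else 1 - a) *
        ((if x ∈ Z then b else 0) + (if (x ∈ W₁ ↔ x ∈ Z) then 1 - b else 0))) =
      ∏ x, (if x ∈ W₁ then (a * ((if x ∈ Z then b else 0) + (if x ∈ Z then 1 - b else 0)))
        else ((1 - a) * ((if x ∈ Z then b else 0) + (if x ∈ Z then 0 else 1 - b)))) := by
    intro W₁
    refine Finset.prod_congr rfl fun x _ => ?_
    by_cases h1 : x ∈ W₁ <;> by_cases h2 : x ∈ Z <;> simp [h1, h2]
  simp_rw [this]
  rw [sum_prod_ite]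
  refine Finset.prod_congr rfl fun x _ => ?_
  by_cases h2 : x ∈ Z
  · simp only [h2, if_true]; ring
  · simp only [h2, if_false]; ring

lemma Ex_union (a b : ℝ) (g : Finset X → ℝ) :
    Ex (1 - (1 - a) * (1 - b)) g = Ex a (fun W₁ => Ex b (fun W₂ => g (W₁ ∪ W₂))) := by
  have h1 : ∀ W₁ W₂ : Finset X, g (W₁ ∪ W₂) = ∑ Z : Finset X, ind (W₁ ∪ W₂ = Z) * g Z := by
    intro W₁ W₂
    rw [Finset.sum_eq_single (W₁ ∪ W₂)]
    · rw [ind_pos rfl, one_mul]
    · intro Z _ hZ
      rw [ind_neg (fun h => hZ h.symm), zero_mul]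
    · intro h; exact absurd (mem_univ _) h
  have h2 : ∀ W₁ : Finset X, Ex b (fun W₂ => g (W₁ ∪ W₂)) =
      ∑ Z : Finset X, (∑ W₂ : Finset X, mu b W₂ * ind (W₁ ∪ W₂ = Z)) * g Z := by
    intro W₁
    unfold Ex
    simp_rw [h1 W₁, Finset.mul_sum, Finset.sum_mul]
    rw [Finset.sum_comm]
    exact Finset.sum_congr rfl fun Z _ => Finset.sum_congr rfl fun W₂ _ => by ring
  unfold Ex at h2 ⊢
  simp_rw [h2]
  simp_rw [Finset.mul_sum]
  rw [Finset.sum_comm]
  refine Finset.sum_congr rfl fun Z _ => ?_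
  rw [← fiber_union a b Z, Finset.sum_mul]
  exact Finset.sum_congr rfl fun W₁ _ => by ring

/-! ### The bad-pair second moment -/

section Bad

variable {ι : Type*}

/-- Second moment bound for bad pairs. -/
theorem bad_bound (I : Finset ι) (e : ι → Finset X) (ρ δ N : ℝ) (t l : ℕ)
    (hρ : 0 < ρ) (hδ0 : 0 < δ) (hδ1 : δ ≤ 1) (hρδ : ρ ≤ δ) (hN : 0 ≤ N)
    (hsize : ∀ i ∈ I, (e i).card ≤ l)
    (hspread : ∀ S : Finset X, (#{i ∈ I | S ⊆ e i} : ℝ) ≤ ρ ^ S.card * N) :
    (∑ i ∈ I, Ex δ (fun W => ind (∀ j ∈ I, e j ⊆ e i ∪ W → t < (e i ∩ e j).card))) ^ 2 ≤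
      (I.card : ℝ) * (N * 2 ^ l * (ρ / δ) ^ (t + 1)) := by
  have hδne : δ ≠ 0 := hδ0.ne'
  have hδ00 : 0 ≤ δ := hδ0.le
  set a : ι → ℝ := fun i => (δ⁻¹) ^ (e i).card with ha
  have ha0 : ∀ i, 0 ≤ a i := fun i => pow_nonneg (inv_nonneg.mpr hδ00) _
  set B : ι → Finset X → ℝ := fun i Z =>
    ind (e i ⊆ Z) * ind (∀ j ∈ I, e j ⊆ Z → t < (e i ∩ e j).card) with hB
  have hB0 : ∀ i Z, 0 ≤ B i Z := fun i Z => mul_nonneg (ind_nonneg _) (ind_nonneg _)
  set f : Finset X → ℝ := fun Z => ∑ i ∈ I, a i * B i Z with hf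
  -- Step A, B
  have hAB : (∑ i ∈ I, Ex δ (fun W => ind (∀ j ∈ I, e j ⊆ e i ∪ W → t < (e i ∩ e j).card)))
      = Ex δ f := by
    rw [hf, Ex_sum]
    refine Finset.sum_congr rfl fun i _ => ?_
    rw [Ex_const_mul]
    exact Ex_planted hδne (e i)
      (fun Z => ind (∀ j ∈ I, e j ⊆ Z → t < (e i ∩ e j).card))
  -- Step C
  rw [hAB]
  refine (Ex_sq_le hδ00 hδ1 f).trans ?_
  -- Step D
  have hD : ∀ Z, (f Z) ^ 2 ≤ ∑ i ∈ I, ∑ i' ∈ I, (a i * a i' * ind (t < (e i ∩ e i').card)) *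
      ind (e i ∪ e i' ⊆ Z) := by
    intro Z
    rw [hf, sq, Finset.sum_mul_sum]
    refine Finset.sum_le_sum fun i hi => Finset.sum_le_sum fun i' hi' => ?_
    by_cases h1 : e i ⊆ Z ∧ ∀ j ∈ I, e j ⊆ Z → t < (e i ∩ e j).card
    · by_cases h2 : e i' ⊆ Z
      · have h3 : t < (e i ∩ e i').card := h1.2 i' hi' h2
        have h4 : e i ∪ e i' ⊆ Z := Finset.union_subset h1.1 h2
        rw [ind_pos h3, ind_pos h4, hB]
        simp only [mul_one]
        have hle : ∀ k Z', B k Z' ≤ 1 := fun k Z' => by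
          have := ind_le_one (e k ⊆ Z')
          have h' := ind_le_one (∀ j ∈ I, e j ⊆ Z' → t < (e k ∩ e j).card)
          have h0 := ind_nonneg (e k ⊆ Z')
          have h0' := ind_nonneg (∀ j ∈ I, e j ⊆ Z' → t < (e k ∩ e j).card)
          calc _ ≤ (1 : ℝ) * 1 := mul_le_mul this h' h0' zero_le_one
            _ = 1 := by ring
        have h5 : a i * B i Z ≤ a i := by
          have := mul_le_mul_of_nonneg_left (hle i Z) (ha0 i)
          simpa using this
        have h6 : a i' * B i' Z ≤ a i' := by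
          have := mul_le_mul_of_nonneg_left (hle i' Z) (ha0 i')
          simpa using this
        exact mul_le_mul h5 h6 (mul_nonneg (ha0 _) (hB0 _ _)) (ha0 _)
      · have : B i' Z = 0 := by
          simp only [hB]; rw [ind_neg h2, zero_mul]
        rw [this]
        simp only [mul_zero]
        exact mul_nonneg (mul_nonneg (mul_nonneg (ha0 _) (ha0 _)) (ind_nonneg _)) (ind_nonneg _)
    · have : B i Z = 0 := by
        simp only [hB]; rw [← ind_and, ind_neg h1]
      rw [this]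
      simp only [mul_zero, zero_mul]
      exact mul_nonneg (mul_nonneg (mul_nonneg (ha0 _) (ha0 _)) (ind_nonneg _)) (ind_nonneg _)
  refine (Ex_mono hδ00 hδ1 hD).trans ?_
  -- Step E
  have hE : Ex δ (fun Z => ∑ i ∈ I, ∑ i' ∈ I, (a i * a i' * ind (t < (e i ∩ e i').card)) *
      ind (e i ∪ e i' ⊆ Z)) = ∑ i ∈ I, ∑ i' ∈ I,
        ind (t < (e i ∩ e i').card) * (δ⁻¹) ^ (e i ∩ e i').card := by
    rw [Ex_sum]
    refine Finset.sum_congr rfl fun i _ => ?_
    rw [Ex_sum]
    refine Finset.sum_congr rfl fun i' _ => ?_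
    rw [Ex_const_mul, Ex_up hδne]
    have hc : (e i).card + (e i').card = (e i ∪ e i').card + (e i ∩ e i').card :=
      (Finset.card_union_add_card_inter _ _).symm
    have : a i * a i' * δ ^ (e i ∪ e i').card = (δ⁻¹) ^ (e i ∩ e i').card := by
      simp only [ha]
      rw [← pow_add, hc, pow_add, mul_right_comm, ← mul_pow, inv_mul_cancel₀ hδne, one_pow,
        one_mul]
    calc _ = ind (t < (e i ∩ e i').card) * (a i * a i' * δ ^ (e i ∪ e i').card) := by ring
      _ = _ := by rw [this]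
  rw [hE]
  -- Step F, G: fixed i
  have hFG : ∀ i ∈ I, ∑ i' ∈ I, ind (t < (e i ∩ e i').card) * (δ⁻¹) ^ (e i ∩ e i').card ≤
      N * 2 ^ l * (ρ / δ) ^ (t + 1) := by
    intro i hi
    have hF : ∑ i' ∈ I, ind (t < (e i ∩ e i').card) * (δ⁻¹) ^ (e i ∩ e i').card ≤
        ∑ S ∈ (e i).powerset, ind (t < S.card) * (δ⁻¹) ^ S.card * (#{i' ∈ I | S ⊆ e i'} : ℝ) := by
      have hcount : ∀ S : Finset X, (#{i' ∈ I | S ⊆ e i'} : ℝ) = ∑ i' ∈ I, ind (S ⊆ e i') := by
        intro S
        rw [Finset.card_filter]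
        push_cast
        refine Finset.sum_congr rfl fun i' _ => ?_
        by_cases h : S ⊆ e i'
        · rw [ind_pos h, if_pos h]
        · rw [ind_neg h, if_neg h]
      simp_rw [hcount, Finset.mul_sum]
      rw [Finset.sum_comm]
      refine Finset.sum_le_sum fun i' _ => ?_
      have hmem : e i ∩ e i' ∈ (e i).powerset := Finset.mem_powerset.mpr Finset.inter_subset_left
      have hnn : ∀ S ∈ (e i).powerset, 0 ≤ ind (t < S.card) * (δ⁻¹) ^ S.card * ind (S ⊆ e i') :=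
        fun S _ => mul_nonneg (mul_nonneg (ind_nonneg _) (pow_nonneg (inv_nonneg.mpr hδ00) _))
          (ind_nonneg _)
      refine le_trans (le_of_eq ?_) (Finset.single_le_sum hnn hmem)
      rw [ind_pos (Finset.inter_subset_right : e i ∩ e i' ⊆ e i'), mul_one]
    refine hF.trans ?_
    have hratio0 : 0 ≤ ρ / δ := div_nonneg hρ.le hδ00
    have hratio1 : ρ / δ ≤ 1 := (div_le_one hδ0).mpr hρδ
    have hG : ∀ S ∈ (e i).powerset, ind (t < S.card) * (δ⁻¹) ^ S.card * (#{i' ∈ I | S ⊆ e i'} : ℝ)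
        ≤ N * (ρ / δ) ^ (t + 1) := by
      intro S _
      by_cases hS : t < S.card
      · rw [ind_pos hS, one_mul]
        have h1 : (δ⁻¹) ^ S.card * (#{i' ∈ I | S ⊆ e i'} : ℝ) ≤ (δ⁻¹) ^ S.card * (ρ ^ S.card * N) :=
          mul_le_mul_of_nonneg_left (hspread S) (pow_nonneg (inv_nonneg.mpr hδ00) _)
        have h2 : (δ⁻¹) ^ S.card * (ρ ^ S.card * N) = N * (ρ / δ) ^ S.card := by
          rw [div_eq_mul_inv, mul_pow]; ring
        rw [h2] at h1
        refine h1.trans (mul_le_mul_of_nonneg_left ?_ hN)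
        exact pow_le_pow_of_le_one hratio0 hratio1 hS
      · rw [ind_neg hS]
        simp only [zero_mul]
        exact mul_nonneg hN (pow_nonneg hratio0 _)
    refine (Finset.sum_le_card_nsmul _ _ _ hG).trans ?_
    rw [nsmul_eq_mul, Finset.card_powerset]
    have hp : ((2 : ℝ) ^ (e i).card) ≤ 2 ^ l :=
      pow_le_pow_right₀ (by norm_num) (hsize i hi)
    push_cast
    have hnn : 0 ≤ N * (ρ / δ) ^ (t + 1) := mul_nonneg hN (pow_nonneg hratio0 _)
    calc (2 : ℝ) ^ (e i).card * (N * (ρ / δ) ^ (t + 1))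
        ≤ 2 ^ l * (N * (ρ / δ) ^ (t + 1)) := mul_le_mul_of_nonneg_right hp hnn
      _ = N * 2 ^ l * (ρ / δ) ^ (t + 1) := by ring
  calc _ ≤ ∑ _i ∈ I, (N * 2 ^ l * (ρ / δ) ^ (t + 1)) := Finset.sum_le_sum hFG
    _ = _ := by rw [Finset.sum_const, nsmul_eq_mul]

/-- Numerical input of a round. -/
lemma round_numeric (r : ℕ) (ρ δ N M : ℝ) (hρ : 0 < ρ) (hδ0 : 0 < δ) (hK : 2048 * ρ ≤ δ)
    (hN : 0 ≤ N) (card : ℝ) (hcard : card ≤ N)
    (hMsq : M ^ 2 ≤ card * (N * 2 ^ (2 ^ (r + 1) - 1) * (ρ / δ) ^ (2 ^ r))) :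
    M ≤ (1 / 2) ^ (r + 2) * ((1 / 2) ^ (r + 2) * N) := by
  set η : ℝ := (1 / 2) ^ (r + 2) with hη
  have hη0 : 0 ≤ η := by positivity
  have hratio0 : 0 ≤ ρ / δ := by positivity
  have hratio1 : ρ / δ ≤ 1 / 2048 := by
    rw [div_le_div_iff₀ hδ0 (by norm_num)]
    linarith
  have h1 : (ρ / δ) ^ (2 ^ r) ≤ (1 / 2048 : ℝ) ^ (2 ^ r) :=
    pow_le_pow_left₀ hratio0 hratio1 _
  have h2 : (2 : ℝ) ^ (2 ^ (r + 1) - 1) ≤ 4 ^ (2 ^ r) := by
    have : (4 : ℝ) ^ (2 ^ r) = 2 ^ (2 ^ (r + 1)) := by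
      rw [show (4 : ℝ) = 2 ^ 2 by norm_num, ← pow_mul, pow_succ' 2 r]
    rw [this]
    exact pow_le_pow_right₀ (by norm_num) (Nat.sub_le _ _)
  have h3 : (2 : ℝ) ^ (2 ^ (r + 1) - 1) * (ρ / δ) ^ (2 ^ r) ≤ η ^ 4 := by
    calc (2 : ℝ) ^ (2 ^ (r + 1) - 1) * (ρ / δ) ^ (2 ^ r)
        ≤ 4 ^ (2 ^ r) * (1 / 2048 : ℝ) ^ (2 ^ r) := by
          apply mul_le_mul h2 h1 (by positivity) (by positivity)
      _ = (1 / 512 : ℝ) ^ (2 ^ r) := by rw [← mul_pow]; norm_num
      _ = (1 / 2 : ℝ) ^ (9 * 2 ^ r) := by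
          rw [pow_mul]; norm_num
      _ ≤ (1 / 2 : ℝ) ^ ((r + 2) * 4) := by
          apply pow_le_pow_of_le_one (by norm_num) (by norm_num)
          have : r + 1 ≤ 2 ^ r := Nat.lt_two_pow_self
          nlinarith
      _ = η ^ 4 := by rw [hη, pow_mul]
  have h4 : M ^ 2 ≤ (η * (η * N)) ^ 2 := by
    calc M ^ 2 ≤ card * (N * 2 ^ (2 ^ (r + 1) - 1) * (ρ / δ) ^ (2 ^ r)) := hMsq
      _ = card * (N * (2 ^ (2 ^ (r + 1) - 1) * (ρ / δ) ^ (2 ^ r))) := by ring
      _ ≤ N * (N * η ^ 4) := by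
          apply mul_le_mul hcard _ (by positivity) hN
          exact mul_le_mul_of_nonneg_left h3 hN
      _ = (η * (η * N)) ^ 2 := by ring
  exact (abs_le_of_sq_le_sq' h4 (by positivity)).2

/-- The induction over rounds. -/
theorem rounds (ρ δ N : ℝ) (hρ : 0 < ρ) (hδ0 : 0 < δ) (hδ1 : δ < 1) (hK : 2048 * ρ ≤ δ)
    (hN : 0 < N) (r : ℕ) :
    ∀ (I : Finset ι) (e : ι → Finset X),
      (1 - (1 / 2 : ℝ) ^ (r + 1)) * N ≤ (I.card : ℝ) →
      (∀ i ∈ I, (e i).card < 2 ^ r) →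
      (∀ S : Finset X, (#{i ∈ I | S ⊆ e i} : ℝ) ≤ ρ ^ S.card * N) →
      ∀ q : ℝ, 0 ≤ q → q ≤ 1 → (r : ℝ) * δ ≤ q →
        1 / 2 + (1 / 2 : ℝ) ^ (r + 1) ≤ Ex q (fun W => ind (∃ i ∈ I, e i ⊆ W)) := by
  induction r with
  | zero =>
    intro I e hcard hsize _ q _ _ _
    have hI : I.Nonempty := by
      rw [Finset.nonempty_iff_ne_empty]
      rintro rfl
      norm_num at hcard
      linarith
    obtain ⟨i₀, hi₀⟩ := hI
    have he : e i₀ = ∅ := by
      have := hsize i₀ hi₀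
      simpa using this
    have : (fun W => ind (∃ i ∈ I, e i ⊆ W)) = fun _ : Finset X => (1 : ℝ) := by
      funext W
      exact ind_pos ⟨i₀, hi₀, by simp [he]⟩
    rw [this, Ex_one]
    norm_num
  | succ r ih =>
    intro I e hcard hsize hspread q hq0 hq1 hqr
    classical
    push_cast at hqr
    have hρδ : ρ ≤ δ := by linarith
    have h1δ : 0 < 1 - δ := by linarith
    have hrδ : 0 ≤ (r : ℝ) * δ := by positivity
    set q' : ℝ := (q - δ) / (1 - δ) with hq'
    have hqδ : δ ≤ q := by nlinarith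
    have hq'0 : 0 ≤ q' := div_nonneg (by linarith) h1δ.le
    have hq'1 : q' ≤ 1 := by
      rw [hq', div_le_one h1δ]; linarith
    have hq'r : (r : ℝ) * δ ≤ q' := by
      rw [hq', le_div_iff₀ h1δ]
      have : (r : ℝ) * δ * (1 - δ) ≤ (r : ℝ) * δ := by nlinarith
      nlinarith
    have hqq' : q = 1 - (1 - δ) * (1 - q') := by
      rw [hq']; field_simp; ring
    set t : ℕ := 2 ^ r - 1 with ht
    have ht1 : t + 1 = 2 ^ r := by
      have : 1 ≤ 2 ^ r := Nat.one_le_two_pow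
      omega
    set l : ℕ := 2 ^ (r + 1) - 1 with hl
    have hcardN : (I.card : ℝ) ≤ N := by
      have := hspread ∅
      simpa using this
    set bad : Finset X → ι → Prop := fun W i => ∀ j ∈ I, e j ⊆ e i ∪ W → t < (e i ∩ e j).card
      with hbad
    set b : Finset X → ℝ := fun W => ∑ i ∈ I, ind (bad W i) with hb
    set M : ℝ := Ex δ b with hM
    have hb0 : ∀ W, 0 ≤ b W := fun W => Finset.sum_nonneg fun i _ => ind_nonneg _
    have hM0 : 0 ≤ M := Ex_nonneg hδ0.le hδ1.le hb0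
    have hMsq : M ^ 2 ≤ (I.card : ℝ) * (N * 2 ^ l * (ρ / δ) ^ (t + 1)) := by
      have := bad_bound I e ρ δ N t l hρ hδ0 hδ1.le hρδ hN.le
        (fun i hi => by have := hsize i hi; omega) hspread
      rw [hM, hb, Ex_sum]
      exact this
    rw [ht1] at hMsq
    set η : ℝ := (1 / 2) ^ (r + 2) with hη
    have hη0 : 0 < η := by positivity
    have hη4 : η ≤ 1 / 4 := by
      rw [hη, pow_add]
      have : ((1 : ℝ) / 2) ^ r ≤ 1 := pow_le_one₀ (by norm_num) (by norm_num)
      nlinarith [pow_pos (show (0 : ℝ) < 1 / 2 by norm_num) r]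
    have hMη : M ≤ η * (η * N) :=
      round_numeric r ρ δ N M hρ hδ0 hK hN.le (I.card : ℝ) hcardN hMsq
    have hr1 : (1 / 2 : ℝ) ^ (r + 1) = 2 * η := by
      rw [hη, pow_succ _ (r + 1)]; ring
    set c : ℝ := 1 / 2 + (1 / 2 : ℝ) ^ (r + 1) with hc
    have hc0 : 0 ≤ c := by positivity
    rw [hqq', Ex_union]
    set g : Finset X → ℝ :=
      fun W₁ => Ex q' (fun W₂ => ind (∃ i ∈ I, e i ⊆ W₁ ∪ W₂)) with hg
    have hηN : 0 < η * N := mul_pos hη0 hN
    -- pointwise lower bound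
    have hpt : ∀ W₁, c * (1 - (η * N)⁻¹ * b W₁) ≤ g W₁ := by
      intro W₁
      by_cases hsmall : b W₁ ≤ η * N
      · -- good case
        have hstep : c ≤ g W₁ := by
          set I₁ : Finset ι := I.filter (fun i => ¬ bad W₁ i) with hI₁
          have hbcount : b W₁ = ((I.filter (fun i => bad W₁ i)).card : ℝ) := by
            rw [Finset.card_filter]
            push_cast
            refine Finset.sum_congr rfl fun i _ => ?_
            by_cases h : bad W₁ i
            · rw [ind_pos h, if_pos h]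
            · rw [ind_neg h, if_neg h]
          have hsplit : ((I₁.card : ℝ)) = (I.card : ℝ) - b W₁ := by
            rw [hbcount, hI₁]
            have := Finset.card_filter_add_card_filter_not (s := I) (fun i => bad W₁ i)
            rw [← this]
            push_cast
            ring
          have hI₁card : (1 - (1 / 2 : ℝ) ^ (r + 1)) * N ≤ (I₁.card : ℝ) := by
            rw [hsplit, hr1]
            nlinarith
          have hex : ∀ i, ∃ E : Finset X, i ∈ I₁ →
              (E ⊆ e i ∧ E.card ≤ t ∧ ∃ j ∈ I, e j ⊆ W₁ ∪ E) := by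
            intro i
            by_cases hi : i ∈ I₁
            · have hnb : ¬ bad W₁ i := (Finset.mem_filter.mp hi).2
              simp only [hbad, not_forall, not_lt] at hnb
              obtain ⟨j, hj, hsub, hle⟩ := hnb
              refine ⟨e j \ W₁, fun _ => ⟨?_, ?_, j, hj, ?_⟩⟩
              · intro x hx
                have hx' := Finset.mem_sdiff.mp hx
                have := hsub hx'.1
                rcases Finset.mem_union.mp this with h | h
                · exact h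
                · exact absurd h hx'.2
              · refine le_trans (Finset.card_le_card ?_) hle
                intro x hx
                have hx' := Finset.mem_sdiff.mp hx
                have := hsub hx'.1
                rcases Finset.mem_union.mp this with h | h
                · exact Finset.mem_inter.mpr ⟨h, hx'.1⟩
                · exact absurd h hx'.2
              · intro x hx
                by_cases hxW : x ∈ W₁
                · exact Finset.mem_union_left _ hxW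
                · exact Finset.mem_union_right _ (Finset.mem_sdiff.mpr ⟨hx, hxW⟩)
            · exact ⟨∅, fun h => absurd h hi⟩
          choose e' he' using hex
          have hI₁sub : I₁ ⊆ I := Finset.filter_subset _ _
          have hIH := ih I₁ e' hI₁card
            (fun i hi => by
              have := (he' i hi).2.1
              have h2 : 1 ≤ 2 ^ r := Nat.one_le_two_pow
              omega)
            (fun S => by
              refine le_trans ?_ (hspread S)
              have : #{i ∈ I₁ | S ⊆ e' i} ≤ #{i ∈ I | S ⊆ e i} := by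
                apply Finset.card_le_card
                intro i hi
                have hi' := Finset.mem_filter.mp hi
                exact Finset.mem_filter.mpr
                  ⟨hI₁sub hi'.1, hi'.2.trans (he' i hi'.1).1⟩
              exact_mod_cast this)
            q' hq'0 hq'1 hq'r
          refine hIH.trans ?_
          apply Ex_mono hq'0 hq'1
          intro W₂
          apply ind_mono
          rintro ⟨i, hi, hsub⟩
          obtain ⟨_, _, j, hj, hsubj⟩ := he' i hi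
          exact ⟨j, hj, hsubj.trans (Finset.union_subset_union_right hsub)⟩
        have h2 : c * (1 - (η * N)⁻¹ * b W₁) ≤ c * 1 := by
          apply mul_le_mul_of_nonneg_left _ hc0
          have : 0 ≤ (η * N)⁻¹ * b W₁ := mul_nonneg (inv_nonneg.mpr hηN.le) (hb0 W₁)
          linarith
        linarith
      · -- bad case
        have h0 : 0 ≤ g W₁ := Ex_nonneg hq'0 hq'1 fun W₂ => ind_nonneg _
        have h1 : 1 < (η * N)⁻¹ * b W₁ := by
          rw [inv_mul_eq_div, one_lt_div hηN]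
          exact not_le.mp hsmall
        have : c * (1 - (η * N)⁻¹ * b W₁) ≤ 0 :=
          mul_nonpos_of_nonneg_of_nonpos hc0 (by linarith)
        linarith
    have hsum : Ex δ (fun W₁ => c * (1 - (η * N)⁻¹ * b W₁)) = c * (1 - (η * N)⁻¹ * M) := by
      rw [Ex_const_mul]
      congr 1
      have : (fun W₁ => 1 - (η * N)⁻¹ * b W₁) =
          fun W₁ => (1 : ℝ) - (η * N)⁻¹ * b W₁ := rfl
      unfold Ex at hM ⊢
      have h3 := sum_mu (X := X) δ
      calc ∑ W : Finset X, mu δ W * (1 - (η * N)⁻¹ * b W)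
          = ∑ W : Finset X, mu δ W - (η * N)⁻¹ * ∑ W : Finset X, mu δ W * b W := by
            rw [Finset.mul_sum, ← Finset.sum_sub_distrib]
            exact Finset.sum_congr rfl fun W _ => by ring
        _ = _ := by rw [h3, hM]
    have hfinal : c * (1 - (η * N)⁻¹ * M) ≤ Ex δ g := by
      rw [← hsum]
      exact Ex_mono hδ0.le hδ1.le hpt
    refine le_trans ?_ hfinal
    have hMratio : (η * N)⁻¹ * M ≤ η := by
      rw [inv_mul_eq_div, div_le_iff₀ hηN]
      linarith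
    have hcη : c = 1 / 2 + 2 * η := by rw [hc, hr1]
    have h5 : c * (1 - η) ≤ c * (1 - (η * N)⁻¹ * M) :=
      mul_le_mul_of_nonneg_left (by linarith) hc0
    refine le_trans ?_ h5
    rw [hcη]
    nlinarith

end Bad

/-- **Spread lemma.** -/
theorem spread_main {ι : Type*} [Fintype ι] [Nonempty ι] (e : ι → Finset X) (h : ℕ)
    (hh : ∀ i, (e i).card ≤ h) (ρ : ℝ) (hρ : 0 < ρ)
    (hspread : ∀ S : Finset X, (#{i | S ⊆ e i} : ℝ) ≤ ρ ^ S.card * (Fintype.card ι : ℝ))
    (q : ℝ) (hq0 : 0 ≤ q) (hq1 : q ≤ 1)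
    (hq : q = 1 ∨ ((Nat.log 2 h + 1 : ℕ) : ℝ) * (2048 * ρ) ≤ q) :
    1 / 2 ≤ Ex q (fun W => ind (∃ i, e i ⊆ W)) := by
  classical
  obtain ⟨i₀⟩ := ‹Nonempty ι›
  by_cases hq1' : q = 1
  · subst hq1'
    have h1 : Ex (1 : ℝ) (fun Z => ind (e i₀ ⊆ Z)) = 1 := by
      rw [Ex_up one_ne_zero, one_pow]
    have h2 : Ex (1 : ℝ) (fun Z => ind (e i₀ ⊆ Z)) ≤ Ex (1 : ℝ) (fun W => ind (∃ i, e i ⊆ W)) :=
      Ex_mono zero_le_one le_rfl fun W => ind_mono fun h => ⟨i₀, h⟩
    linarith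
  · have hq2 : ((Nat.log 2 h + 1 : ℕ) : ℝ) * (2048 * ρ) ≤ q := hq.resolve_left hq1'
    have hqlt : q < 1 := lt_of_le_of_ne hq1 hq1'
    set r := Nat.log 2 h + 1 with hr
    have hr1 : (1 : ℝ) ≤ (r : ℝ) := by
      have : 1 ≤ r := by omega
      exact_mod_cast this
    have hδ0 : 0 < 2048 * ρ := by positivity
    have hδ1 : 2048 * ρ < 1 := by nlinarith
    have hN : (0 : ℝ) < Fintype.card ι := by
      have : 0 < Fintype.card ι := Fintype.card_pos_iff.mpr ⟨i₀⟩
      exact_mod_cast this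
    have hmain := rounds ρ (2048 * ρ) (Fintype.card ι : ℝ) hρ hδ0 hδ1 le_rfl hN r
      Finset.univ e
      (by
        rw [Finset.card_univ]
        have : (0 : ℝ) ≤ (1 / 2 : ℝ) ^ (r + 1) := by positivity
        nlinarith)
      (fun i _ => lt_of_le_of_lt (hh i) (Nat.lt_pow_succ_log_self (by norm_num) h))
      (by simpa using hspread)
      q hq0 hq1 hq2
    have hpos : (0 : ℝ) ≤ (1 / 2 : ℝ) ^ (r + 1) := by positivity
    have : Ex q (fun W => ind (∃ i ∈ (Finset.univ : Finset ι), e i ⊆ W)) =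
        Ex q (fun W => ind (∃ i, e i ⊆ W)) := by
      congr 1
      funext W
      simp
    rw [← this]
    linarith

end Crest.Agent.Lib.KK
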